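import Vale.Agent.P144.H436.JPf

/-!
Pfaffians of lists: linearity in a slot, repeated entries, change of the phases of a pair.
-/

set_option linter.all false

namespace Vale.Agent.N144.Alg

open Finset Vale.Agent.P144 Vale.Agent.P144.AL Vale.Agent.P144.H436

section

variable {α 𝕜 : Type*} [CommRing 𝕜]

theorem len_erase {l : List α} {j : ℕ} (hj : j < l.length) : (l.eraseIdx j).length + 1 = l.length := by
  rw [List.length_eraseIdx, if_pos hj]
  omega

/-- The Pfaffian is linear in a slot. -/
theorem Pf_slot {K : α → α → 𝕜} {z u v : α} {s t : 𝕜} (p r : List α)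
    (h1 : ∀ x ∈ p, K x z = s * K x u + t * K x v) (h2 : ∀ y ∈ r, K z y = s * K u y + t * K v y) :
    Pf K (p ++ z :: r) = s * Pf K (p ++ u :: r) + t * Pf K (p ++ v :: r) := by
  induction hn : p.length + r.length using Nat.strong_induction_on generalizing p r with
  | _ n ih =>
    cases p with
    | nil =>
      simp only [List.nil_append, Pf_cons]
      rw [← sumE_lin]
      refine sumE_congr r fun j hj => ?_
      rw [h2 _ (List.getElem_mem hj)]
      ring
    | cons c p =>
      simp only [List.cons_append, Pf_cons, sumE_append, sumE]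
      have a1 : sumE (fun y w => K c y * Pf K (w ++ z :: r)) p =
          s * sumE (fun y w => K c y * Pf K (w ++ u :: r)) p +
            t * sumE (fun y w => K c y * Pf K (w ++ v :: r)) p := by
        rw [← sumE_lin]
        refine sumE_congr p fun j hj => ?_
        rw [ih _ (by rw [← hn, List.length_cons, ← len_erase hj]; omega) (p.eraseIdx j) r
          (fun x hx => h1 x (List.mem_cons_of_mem _ ((List.eraseIdx_sublist p j).subset hx))) h2 rfl]
        ring
      have a2 : sumE (fun y w => K c y * Pf K (p ++ z :: w)) r =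
          s * sumE (fun y w => K c y * Pf K (p ++ u :: w)) r +
            t * sumE (fun y w => K c y * Pf K (p ++ v :: w)) r := by
        rw [← sumE_lin]
        refine sumE_congr r fun j hj => ?_
        rw [ih _ (by rw [← hn, List.length_cons, ← len_erase hj]; omega) p (r.eraseIdx j)
          (fun x hx => h1 x (List.mem_cons_of_mem _ hx))
          (fun y hy => h2 y ((List.eraseIdx_sublist r j).subset hy)) rfl]
        ring
      rw [a1, a2, h1 c List.mem_cons_self]
      ring

/-- A repeated entry. -/
theorem Pf_rep {K : α → α → 𝕜} {z : α} (hz : K z z = 0) (p r : List α) :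
    Pf K (p ++ z :: z :: r) = 0 := by
  induction hn : p.length + r.length using Nat.strong_induction_on generalizing p r with
  | _ n ih =>
    cases p with
    | nil =>
      rw [List.nil_append, Pf_cons, sumE, hz, zero_mul]
      have h1 : sumE (fun y t => K z y * Pf K (z :: t)) r =
          sumE (fun y t => sumE (fun x u => K z y * K z x * Pf K u) t) r := by
        refine sumE_congr r fun j hj => ?_
        rw [Pf_cons]
        have h2 := sumE_lin (fun x u => K z x * Pf K u) (fun _ _ => (0 : 𝕜)) (K z r[j]) 0
          (r.eraseIdx j)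
        simp only [mul_zero, add_zero, zero_mul] at h2
        rw [← h2]
        exact sumE_congr _ fun i hi => by ring
      rw [h1, sumE_symm _ (fun y z u => by ring), sub_zero]
    | cons c p =>
      rw [List.cons_append, Pf_cons, sumE_append]
      simp only [sumE]
      have h1 : sumE (fun y u => K c y * Pf K (u ++ z :: z :: r)) p = 0 := by
        rw [← sumE_zero (𝕜 := 𝕜) p]
        refine sumE_congr p fun j hj => ?_
        rw [ih _ (by rw [← hn, List.length_cons, ← len_erase hj]; omega) (p.eraseIdx j) r rfl,
          mul_zero]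
      have h2 : sumE (fun y u => K c y * Pf K (p ++ z :: z :: u)) r = 0 := by
        rw [← sumE_zero (𝕜 := 𝕜) r]
        refine sumE_congr r fun j hj => ?_
        rw [ih _ (by rw [← hn, List.length_cons, ← len_erase hj]; omega) p (r.eraseIdx j) rfl,
          mul_zero]
      rw [h1, h2]
      ring

end

section

variable {α 𝕜 : Type*} [CommRing 𝕜] [Algebra ℝ 𝕜]

/-- The oriented area spanned by two phases. -/
def ar (η η' : ℂ) : ℝ := η.re * η'.im - η.im * η'.re

theorem ar_mul (σ η η' : ℂ) : ar (η * σ) (η' * σ) = ‖σ‖ ^ 2 * ar η η' := by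
  rw [Complex.sq_norm, Complex.normSq_apply]
  simp only [ar, Complex.mul_re, Complex.mul_im]
  ring

/-- `g` is real linear. -/
def RL (g : ℂ → 𝕜) : Prop :=
  ∀ η : ℂ, g η = algebraMap ℝ 𝕜 η.re * g 1 + algebraMap ℝ 𝕜 η.im * g Complex.I

/-- The Pfaffian is an alternating form in the phases of a pair. -/
theorem Pf_pair {K : α → α → 𝕜} (e : ℂ → α) (p r : List α) (h1 : ∀ x ∈ p, RL fun η => K x (e η))
    (h2 : ∀ y ∈ r, RL fun η => K (e η) y) (h3 : ∀ η η', K (e η) (e η') =
      algebraMap ℝ 𝕜 (ar η η') * K (e 1) (e Complex.I)) (η η' : ℂ) :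
    Pf K (p ++ e η :: e η' :: r) =
      algebraMap ℝ 𝕜 (ar η η') * Pf K (p ++ e 1 :: e Complex.I :: r) := by
  have d : ∀ η, Pf K (p ++ e η :: e η :: r) = 0 := fun η =>
    Pf_rep (by rw [h3]; simp [ar, mul_comm]) p r
  have a : ∀ η η', Pf K (p ++ e η :: e η' :: r) =
      algebraMap ℝ 𝕜 η.re * Pf K (p ++ e 1 :: e η' :: r) +
        algebraMap ℝ 𝕜 η.im * Pf K (p ++ e Complex.I :: e η' :: r) := fun η η' =>
    Pf_slot p _ (fun x hx => h1 x hx η) fun y hy => by
      rcases List.mem_cons.1 hy with rfl | hy
      · rw [h3 η, h3 1 η', h3 Complex.I η']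
        simp only [ar, Complex.one_re, Complex.one_im, Complex.I_re, Complex.I_im, map_sub, map_mul,
          map_one, map_zero]
        ring
      · exact h2 y hy η
  have b : ∀ η η', Pf K (p ++ e η :: e η' :: r) =
      algebraMap ℝ 𝕜 η'.re * Pf K (p ++ e η :: e 1 :: r) +
        algebraMap ℝ 𝕜 η'.im * Pf K (p ++ e η :: e Complex.I :: r) := fun η η' => by
    have := Pf_slot (K := K) (z := e η') (u := e 1) (v := e Complex.I)
      (s := algebraMap ℝ 𝕜 η'.re) (t := algebraMap ℝ 𝕜 η'.im) (p ++ [e η]) r (fun x hx => by
        rcases List.mem_append.1 hx with hx | hx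
        · exact h1 x hx η'
        · rw [List.mem_singleton.1 hx, h3 η η', h3 η 1, h3 η Complex.I]
          simp only [ar, Complex.one_re, Complex.one_im, Complex.I_re, Complex.I_im, map_sub,
            map_mul, map_one, map_zero]
          ring) fun y hy => h2 y hy η'
    simpa only [List.append_assoc, List.singleton_append] using this
  have c := d (1 + Complex.I)
  rw [a, b 1, b Complex.I, d, d] at c
  simp only [Complex.add_re, Complex.add_im, Complex.one_re, Complex.one_im, Complex.I_re,
    Complex.I_im, add_zero, zero_add, map_one, one_mul, mul_zero] at c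
  rw [a, b 1 η', b Complex.I η', d, d, ar, map_sub, map_mul, map_mul]
  linear_combination (algebraMap ℝ 𝕜 η.im * algebraMap ℝ 𝕜 η'.re) * c

end

end Vale.Agent.N144.Alg
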